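import Vale.Agent.KK.PF.Q1

/-!
# Hosts with expectation threshold of order 1/n: definitions

Edge sets are finite sets of unordered pairs. `vset D` is the set of endpoints of `D`;
`D` is orientable when every edge can choose one of its endpoints injectively (every component
has at most one cycle); `core L` keeps the edges of `L` that lie in no minimal edge set having
more edges than endpoints.
-/

namespace Vale.Agent.KK.RG

open Finset SimpleGraph

variable {V : Type*} [Fintype V]

open Classical in
/-- The set of endpoints of a set of edges. -/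
noncomputable def vset (D : Finset (Sym2 V)) : Finset V :=
  univ.filter (fun v => ∃ e ∈ D, v ∈ e)

/-- An injective choice of an endpoint for every edge. -/
def Orientable (D : Finset (Sym2 V)) : Prop :=
  ∃ g : Sym2 V → V, (∀ e ∈ D, g e ∈ e) ∧ Set.InjOn g (D : Set (Sym2 V))

/-- More edges than endpoints. -/
def Viol (Y : Finset (Sym2 V)) : Prop := (vset Y).card < Y.card

/-- A minimal edge set with more edges than endpoints. -/
def MinViol (Y : Finset (Sym2 V)) : Prop := Viol Y ∧ ∀ Y', Y' ⊂ Y → ¬ Viol Y'

open Classical in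
/-- The edges of `L` that lie in no minimal violating subset of `L`. -/
noncomputable def core (L : Finset (Sym2 V)) : Finset (Sym2 V) :=
  L.filter (fun e => ¬ ∃ Y, Y ⊆ L ∧ e ∈ Y ∧ MinViol Y)

/-- The density property: `c ^ |D| ≤ c ^ |V(D)| * lam ^ |D|` for every set `D` of edges of
`H`. -/
def Dens (H : SimpleGraph V) (c lam : ℝ) : Prop :=
  ∀ D : Finset (Sym2 V), (∀ e ∈ D, e ∈ H.edgeSet) →
    c ^ D.card ≤ c ^ (vset D).card * lam ^ D.card

/-- Breadth-first data of radius `r` around the vertex set `A` in the graph `G`: the ball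
`Bd` of the vertices at distance less than `r` from `A`, their distances `dep` and a parent
function `par` towards `A`. -/
structure Bfs (G : SimpleGraph V) (A : Finset V) (r : ℕ) where
  /-- the ball -/
  Bd : Finset V
  /-- the distance from `A` -/
  dep : V → ℕ
  /-- the parent -/
  par : V → V
  subA : A ⊆ Bd
  dep_zero : ∀ v ∈ Bd, (dep v = 0 ↔ v ∈ A)
  dep_lt : ∀ v ∈ Bd, dep v < r
  par_mem : ∀ v ∈ Bd, v ∉ A → par v ∈ Bd
  par_adj : ∀ v ∈ Bd, v ∉ A → G.Adj v (par v)
  par_dep : ∀ v ∈ Bd, v ∉ A → dep (par v) + 1 = dep v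
  dep_adj : ∀ u ∈ Bd, ∀ v ∈ Bd, G.Adj u v → dep v ≤ dep u + 1
  closed : ∀ u ∈ Bd, ∀ v, G.Adj u v → dep u + 1 < r → v ∈ Bd

open Classical in
/-- The edges of `G` inside the ball that are not parent edges. -/
noncomputable def Bfs.X {G : SimpleGraph V} {A : Finset V} {r : ℕ} (B : Bfs G A r) :
    Finset (Sym2 V) :=
  univ.filter (fun e => e ∈ G.edgeSet ∧ (∀ v ∈ e, v ∈ B.Bd) ∧
    ¬ ∃ v ∈ B.Bd, v ∉ A ∧ e = s(v, B.par v))

open Classical in
/-- The edge sets of the paths with `r` edges that start at `a`. -/
noncomputable def pathSets (G : SimpleGraph V) (a : V) (r : ℕ) : Finset (Finset (Sym2 V)) :=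
  univ.filter (fun π => ∃ (b : V) (p : G.Walk a b), p.IsPath ∧ p.length = r ∧
    π = p.edges.toFinset)

open Classical in
/-- The vertices off the path `f 0, ..., f r` whose first neighbour on the path is `f i`. -/
noncomputable def legs (H : SimpleGraph V) (f : ℕ → V) (r i : ℕ) : Finset V :=
  univ.filter (fun u => (∀ j ≤ r, u ≠ f j) ∧ H.Adj (f i) u ∧ ∀ j < i, ¬ H.Adj (f j) u)

open Classical in
/-- The light edges of `H` under a colouring `w`: those of colour `0`. -/
noncomputable def light (H : SimpleGraph V) {k : ℕ} (w : Sym2 V → Fin (k + 1)) :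
    Finset (Sym2 V) :=
  univ.filter (fun e => e ∈ H.edgeSet ∧ w e = 0)

/-- The constant in the count of paths. -/
noncomputable def Kp (lam : ℝ) : ℝ := 1900 * lam * Real.exp (22 * lam)

end Vale.Agent.KK.RG
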