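import Vale.Agent.Lib.P064.rg.RegimeLabelled

/-!
# The threshold when the expectation threshold is of order 1/n
-/

namespace Vale.Agent.KK.RG

open SimpleGraph Finset
open Vale.Agent.KK Vale.Agent.KK.PP Vale.Agent.KK.PF Vale.Agent.Lib.P064 Vale.Agent.Lib.P064.PF
open Vale.Agent.Lib.P064.RG

/-- The expectation hypothesis is monotone in the density. -/
theorem subgraphsExpected_mono_q {n : ℕ} {H : SimpleGraph (Fin n)} {q q' : ℝ} (hq : 0 ≤ q)
    (hqq : q ≤ q') (h : SubgraphsExpected n H q) : SubgraphsExpected n H q' := by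
  intro H'
  have h1 := h H'
  have h2 : q ^ H'.edgeSet.ncard ≤ q' ^ H'.edgeSet.ncard := pow_le_pow_left₀ hq hqq _
  calc (1 : ℝ) ≤ ((⊤ : SimpleGraph (Fin n)).copyCount H'.coe : ℝ) * q ^ H'.edgeSet.ncard := h1
    _ ≤ ((⊤ : SimpleGraph (Fin n)).copyCount H'.coe : ℝ) * q' ^ H'.edgeSet.ncard :=
        mul_le_mul_of_nonneg_left h2 (Nat.cast_nonneg _)

/-- If the density parameter is at most one, every vertex set spans at most as many edges as
it has vertices. -/
theorem hall_of_dens {n : ℕ} (hn : 2 ≤ n) {H : SimpleGraph (Fin n)} {lam : ℝ} (hlam0 : 0 ≤ lam)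
    (hlam : lam ≤ 1) (hD : Dens H (n : ℝ) lam) (S : Finset (Fin n)) :
    {e ∈ H.edgeSet | ∀ v ∈ e, v ∈ S}.ncard ≤ S.card := by
  classical
  set D : Finset (Sym2 (Fin n)) := univ.filter (fun e => e ∈ H.edgeSet ∧ ∀ v ∈ e, v ∈ S)
    with hDdef
  have hDset : {e ∈ H.edgeSet | ∀ v ∈ e, v ∈ S} = (D : Set (Sym2 (Fin n))) := by
    ext e
    simp [hDdef]
  rw [hDset, Set.ncard_coe_finset]
  have h1 := hD D (fun e he => (mem_filter.1 he).2.1)
  have hv : vset D ⊆ S := by
    intro v hv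
    simp only [vset, mem_filter, mem_univ, true_and] at hv
    obtain ⟨e, he, hve⟩ := hv
    exact (mem_filter.1 he).2.2 v hve
  have hn0 : (0 : ℝ) ≤ n := Nat.cast_nonneg n
  have h2 : (n : ℝ) ^ D.card ≤ (n : ℝ) ^ (vset D).card := by
    calc (n : ℝ) ^ D.card ≤ (n : ℝ) ^ (vset D).card * lam ^ D.card := h1
      _ ≤ (n : ℝ) ^ (vset D).card * 1 :=
          mul_le_mul_of_nonneg_left (pow_le_one₀ hlam0 hlam) (pow_nonneg hn0 _)
      _ = (n : ℝ) ^ (vset D).card := mul_one _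
  have hn1 : (1 : ℝ) < n := by exact_mod_cast hn
  have h3 : D.card ≤ (vset D).card := (pow_le_pow_iff_right₀ hn1).1 h2
  exact le_trans h3 (card_le_card hv)

/-- The scale `r`. -/
theorem exists_scale (x : ℝ) (hx : 2 ≤ x) (N : ℝ) (hN : x ^ 6 ≤ N) :
    ∃ r : ℕ, 2 ≤ r ∧ x ^ (3 * r) ≤ N ∧ N < x ^ (3 * (r + 1)) := by
  classical
  have hx3 : (1 : ℝ) < x ^ 3 := by
    have : (1 : ℝ) < x := by linarith
    exact one_lt_pow₀ this (by norm_num)
  have hex : ∃ m : ℕ, N < (x ^ 3) ^ m := pow_unbounded_of_one_lt N hx3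
  set m0 := Nat.find hex with hm0
  have hQ : N < (x ^ 3) ^ m0 := Nat.find_spec hex
  have hx1 : (1 : ℝ) ≤ x := by linarith
  have h3 : 3 ≤ m0 := by
    by_contra hlt
    rw [not_le] at hlt
    have hle : (x ^ 3) ^ m0 ≤ (x ^ 3) ^ 2 := pow_le_pow_right₀ hx3.le (by omega)
    have e : (x ^ 3) ^ 2 = x ^ 6 := by ring
    rw [e] at hle
    linarith
  refine ⟨m0 - 1, by omega, ?_, ?_⟩
  · have hnot : ¬ N < (x ^ 3) ^ (m0 - 1) := Nat.find_min hex (by omega)
    rw [not_lt] at hnot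
    rw [pow_mul]
    exact hnot
  · have e : m0 - 1 + 1 = m0 := by omega
    rw [e, pow_mul]
    exact hQ

theorem Kp_mono {x y : ℝ} (hx : 0 ≤ x) (hxy : x ≤ y) : Kp x ≤ Kp y := by
  unfold Kp
  have h1 : Real.exp (22 * x) ≤ Real.exp (22 * y) := Real.exp_le_exp.2 (by linarith)
  have h2 : 0 ≤ Real.exp (22 * x) := (Real.exp_pos _).le
  have h3 : 0 ≤ Real.exp (22 * y) := (Real.exp_pos _).le
  have h4 : 1900 * x ≤ 1900 * y := by linarith
  exact mul_le_mul h4 h1 h2 (by linarith)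

theorem one_le_Kp {x : ℝ} (hx : 1 ≤ x) : 1 ≤ Kp x := by
  unfold Kp
  have h1 : 1 ≤ Real.exp (22 * x) := Real.one_le_exp (by linarith)
  nlinarith

/-- The labelled copy-count inequality, with a constant depending only on `K`, whenever the
admissible density `p` is at most `2 K / n`. -/
theorem regime_hlab (K : ℝ) (hK : 1 ≤ K) :
    ∃ L : ℝ, 1 ≤ L ∧ L ≤ 10 ^ 19 * Real.exp (236 * K) ∧
      ∀ (n : ℕ) (H : SimpleGraph (Fin n)) (p : ℝ), 2 ≤ n → 0 ≤ p →
      p ≤ 2 * K / n →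
      (∀ H' : H.Subgraph, (1 : ℝ) / 2 ≤
        ((⊤ : SimpleGraph (Fin n)).copyCount H'.coe : ℝ) * p ^ H'.edgeSet.ncard) →
      ∀ F : SimpleGraph (Fin n), (H.labelledCopyCount F : ℝ) ≤
        (n.factorial : ℝ) * (min 1 (L * (2 * p))) ^ F.edgeSet.ncard := by
  classical
  set Lam : ℝ := 4 * K with hLam
  have hLam4 : 4 ≤ Lam := by rw [hLam]; linarith
  have hKp1 : 1 ≤ Kp Lam := one_le_Kp (by linarith)
  set Mr : ℝ := 2 * Lam ^ 12 * Kp Lam ^ 2 with hMr
  have hMr0 : 0 ≤ Mr := by rw [hMr]; positivity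
  set k : ℕ := ⌈Mr⌉₊ + 1 with hk
  have hkM : Mr ≤ (k : ℝ) + 1 := by
    have h1 : Mr ≤ (⌈Mr⌉₊ : ℝ) := Nat.le_ceil Mr
    rw [hk]
    push_cast
    linarith
  have hk1 : 1 ≤ k := by rw [hk]; omega
  set L1 : ℝ := 16 * ((k : ℝ) + 1) * 6000000000 * Lam with hL1
  have hL10 : 0 ≤ L1 := by rw [hL1]; positivity
  set L : ℝ := 6000000000 + Lam ^ 6 + 2 * L1 with hL
  have hLam60 : 0 ≤ Lam ^ 6 := by positivity
  have hLbound : L ≤ 10 ^ 19 * Real.exp (236 * K) := by
    set E : ℝ := Real.exp Lam with hE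
    have hE1 : Lam + 1 ≤ E := Real.add_one_le_exp Lam
    have hLamE : Lam ≤ E := by linarith
    have hE1' : 1 ≤ E := by linarith
    have hLam0 : 0 ≤ Lam := by linarith
    have hexp22 : Real.exp (22 * Lam) = E ^ 22 := by
      rw [hE, ← Real.exp_nat_mul]
      norm_num
    have hKpE : Kp Lam ≤ 1900 * E ^ 23 := by
      unfold Kp
      rw [hexp22]
      have hE22 : 0 ≤ E ^ 22 := by positivity
      calc 1900 * Lam * E ^ 22 ≤ 1900 * E * E ^ 22 :=
            mul_le_mul_of_nonneg_right (by linarith) hE22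
        _ = 1900 * E ^ 23 := by ring
    have hKp0 : 0 ≤ Kp Lam := by linarith
    have hMrE : Mr ≤ 7220000 * E ^ 58 := by
      rw [hMr]
      have h1 : Lam ^ 12 ≤ E ^ 12 := pow_le_pow_left₀ hLam0 hLamE 12
      have h2 : Kp Lam ^ 2 ≤ (1900 * E ^ 23) ^ 2 := pow_le_pow_left₀ hKp0 hKpE 2
      have h3 : 0 ≤ Kp Lam ^ 2 := by positivity
      have h4 : (0 : ℝ) ≤ E ^ 12 := by positivity
      calc 2 * Lam ^ 12 * Kp Lam ^ 2 ≤ 2 * E ^ 12 * Kp Lam ^ 2 :=
            mul_le_mul_of_nonneg_right (by linarith) h3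
        _ ≤ 2 * E ^ 12 * (1900 * E ^ 23) ^ 2 :=
            mul_le_mul_of_nonneg_left h2 (by positivity)
        _ = 7220000 * E ^ 58 := by ring
    have hE58 : 1 ≤ E ^ 58 := one_le_pow₀ hE1'
    have hkE : (k : ℝ) + 1 ≤ 7220003 * E ^ 58 := by
      have h1 : (⌈Mr⌉₊ : ℝ) < Mr + 1 := Nat.ceil_lt_add_one hMr0
      rw [hk]
      push_cast
      linarith
    have hL1E : L1 ≤ 693120288000000000 * E ^ 59 := by
      rw [hL1]
      have h1 : 16 * ((k : ℝ) + 1) * 6000000000 ≤ 16 * (7220003 * E ^ 58) * 6000000000 := by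
        linarith
      have h2 : (0 : ℝ) ≤ 16 * (7220003 * E ^ 58) * 6000000000 := by positivity
      calc 16 * ((k : ℝ) + 1) * 6000000000 * Lam
          ≤ 16 * (7220003 * E ^ 58) * 6000000000 * Lam :=
            mul_le_mul_of_nonneg_right h1 hLam0
        _ ≤ 16 * (7220003 * E ^ 58) * 6000000000 * E := mul_le_mul_of_nonneg_left hLamE h2
        _ = 693120288000000000 * E ^ 59 := by ring
    have hLam6E : Lam ^ 6 ≤ E ^ 59 := by
      calc Lam ^ 6 ≤ E ^ 6 := pow_le_pow_left₀ hLam0 hLamE 6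
        _ ≤ E ^ 59 := pow_le_pow_right₀ hE1' (by norm_num)
    have hE59 : 1 ≤ E ^ 59 := one_le_pow₀ hE1'
    have hexp59 : Real.exp (236 * K) = E ^ 59 := by
      rw [hE, ← Real.exp_nat_mul, hLam]
      congr 1
      push_cast
      ring
    rw [hL, hexp59]
    linarith
  refine ⟨L, by rw [hL]; linarith, hLbound, ?_⟩
  intro n H p hn hp0 hpK hp F
  have hyp := subgraphsExpected_two_mul H p hp0 hp
  have hnR : (2 : ℝ) ≤ n := by exact_mod_cast hn
  have hnpos : (0 : ℝ) < n := by linarith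
  have h2p0 : (0 : ℝ) ≤ 2 * p := by positivity
  have htop : (H.labelledCopyCount F : ℝ) ≤ (n.factorial : ℝ) := by
    have h1 := labelled_le_top H F
    rw [labelledCopyCount_top, Fintype.card_fin, Nat.descFactorial_self] at h1
    exact_mod_cast h1
  by_cases hA : (n : ℝ) * (2 * p) ≤ 1
  · -- the host has at most one cycle in every component
    have hD := dens_of_hyp h2p0 hyp
    have hHall := hall_of_dens hn (by positivity) hA hD
    obtain ⟨par, hpar, hpar2⟩ := exists_out_orientation H hHall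
    have h1 := pf_labelled_le_min par hpar hpar2 h2p0 hyp (Fin n) F
    rw [Fintype.card_fin, Nat.descFactorial_self] at h1
    refine le_trans h1 ?_
    have hmin : min 1 (6000000000 * (2 * p)) ≤ min 1 (L * (2 * p)) := by
      apply min_le_min le_rfl
      apply mul_le_mul_of_nonneg_right _ h2p0
      rw [hL]; linarith
    have hmin0 : 0 ≤ min 1 (6000000000 * (2 * p)) := le_min zero_le_one (by positivity)
    exact mul_le_mul_of_nonneg_left (pow_le_pow_left₀ hmin0 hmin _) (Nat.cast_nonneg _)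
  · rw [not_le] at hA
    by_cases hB : (n : ℝ) < Lam ^ 6
    · have h1 : 1 ≤ L * (2 * p) := by
        have hLn : (n : ℝ) ≤ L := by rw [hL]; linarith
        have : (n : ℝ) * (2 * p) ≤ L * (2 * p) := mul_le_mul_of_nonneg_right hLn h2p0
        linarith
      rw [min_eq_left h1, one_pow, mul_one]
      exact htop
    · rw [not_lt] at hB
      by_cases h1 : 1 ≤ L * (2 * p)
      · rw [min_eq_left h1, one_pow, mul_one]
        exact htop
      rw [not_le] at h1
      rw [min_eq_right h1.le]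
      set q' : ℝ := max (2 * p) (2 / n) with hq'
      have hq'0 : 0 ≤ q' := le_trans h2p0 (le_max_left _ _)
      have hyp' : SubgraphsExpected n H q' :=
        subgraphsExpected_mono_q h2p0 (le_max_left _ _) hyp
      have hlam2 : 2 ≤ (n : ℝ) * q' := by
        have h2 : 2 / (n : ℝ) ≤ q' := le_max_right _ _
        calc (2 : ℝ) = n * (2 / n) := by field_simp
          _ ≤ n * q' := mul_le_mul_of_nonneg_left h2 hnpos.le
      have hq'Lam : q' ≤ Lam / n := by
        apply max_le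
        · rw [hLam, le_div_iff₀ hnpos]
          have := (le_div_iff₀ hnpos).1 hpK
          linarith
        · apply div_le_div_of_nonneg_right _ hnpos.le
          linarith
      have hlamLam : (n : ℝ) * q' ≤ Lam := by
        calc (n : ℝ) * q' ≤ n * (Lam / n) := mul_le_mul_of_nonneg_left hq'Lam hnpos.le
          _ = Lam := by field_simp
      have hq'4p : q' ≤ 2 * (2 * p) := by
        apply max_le
        · linarith
        · rw [div_le_iff₀ hnpos]
          linarith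
      set lam : ℝ := (n : ℝ) * q' with hlam
      have hlam6 : lam ^ 6 ≤ (n : ℝ) := by
        have : lam ^ 6 ≤ Lam ^ 6 := pow_le_pow_left₀ (by linarith) hlamLam 6
        linarith
      obtain ⟨r, hr2, hcr, hnr⟩ := exists_scale lam hlam2 (n : ℝ) hlam6
      have hlam1 : (1 : ℝ) ≤ lam := by linarith
      have hLam1 : (1 : ℝ) ≤ Lam := by linarith
      have hM : 2 * (n : ℝ) ^ 2 * Kp lam ^ (r + 1) ≤ ((k : ℝ) + 1) ^ r := by
        have hn2 : (n : ℝ) ^ 2 ≤ Lam ^ (12 * r) := by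
          have e1 : (n : ℝ) ^ 2 ≤ (lam ^ (3 * (r + 1))) ^ 2 :=
            pow_le_pow_left₀ hnpos.le hnr.le 2
          have e2 : (lam ^ (3 * (r + 1))) ^ 2 = lam ^ (6 * (r + 1)) := by
            rw [← pow_mul]; congr 1; ring
          have e3 : lam ^ (6 * (r + 1)) ≤ lam ^ (12 * r) :=
            pow_le_pow_right₀ hlam1 (by omega)
          have e4 : lam ^ (12 * r) ≤ Lam ^ (12 * r) := pow_le_pow_left₀ (by linarith) hlamLam _
          linarith
        have hKp0 : 0 ≤ Kp lam := le_trans zero_le_one (one_le_Kp hlam1)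
        have hKpr : Kp lam ^ (r + 1) ≤ Kp Lam ^ (2 * r) := by
          calc Kp lam ^ (r + 1) ≤ Kp Lam ^ (r + 1) :=
                pow_le_pow_left₀ hKp0 (Kp_mono (by linarith) hlamLam) _
            _ ≤ Kp Lam ^ (2 * r) := pow_le_pow_right₀ hKp1 (by omega)
        have hMpow : Mr ^ r ≤ ((k : ℝ) + 1) ^ r := pow_le_pow_left₀ hMr0 hkM r
        have hMr_eq : Mr ^ r = 2 ^ r * Lam ^ (12 * r) * Kp Lam ^ (2 * r) := by
          rw [hMr, mul_pow, mul_pow, ← pow_mul, ← pow_mul]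
        have h2r : (2 : ℝ) ≤ 2 ^ r := by
          calc (2 : ℝ) = 2 ^ 1 := (pow_one 2).symm
            _ ≤ 2 ^ r := pow_le_pow_right₀ (by norm_num) (by omega)
        have hA0 : 0 ≤ Lam ^ (12 * r) := by positivity
        have hB0 : 0 ≤ Kp Lam ^ (2 * r) := by positivity
        have hC0 : 0 ≤ Kp lam ^ (r + 1) := by positivity
        calc 2 * (n : ℝ) ^ 2 * Kp lam ^ (r + 1)
            ≤ 2 * Lam ^ (12 * r) * Kp Lam ^ (2 * r) := by
              have := mul_le_mul hn2 hKpr hC0 hA0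
              nlinarith
          _ ≤ 2 ^ r * Lam ^ (12 * r) * Kp Lam ^ (2 * r) := by
              have := mul_nonneg hA0 hB0
              nlinarith
          _ = Mr ^ r := hMr_eq.symm
          _ ≤ ((k : ℝ) + 1) ^ r := hMpow
      have key := regime_labelled hq'0 hyp' hlam2 r hr2 hcr k hk1 hM F
      refine le_trans key ?_
      apply mul_le_mul_of_nonneg_left _ (Nat.cast_nonneg _)
      apply pow_le_pow_left₀ (by positivity)
      have hk0 : (0 : ℝ) ≤ (k : ℝ) + 1 := by positivity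
      calc 16 * ((k : ℝ) + 1) * 6000000000 * ((n : ℝ) * q') * q'
          ≤ 16 * ((k : ℝ) + 1) * 6000000000 * Lam * q' := by
            have : 0 ≤ 16 * ((k : ℝ) + 1) * 6000000000 := by positivity
            exact mul_le_mul_of_nonneg_right (mul_le_mul_of_nonneg_left hlamLam this) hq'0
        _ = L1 * q' := by rw [hL1]
        _ ≤ L1 * (2 * (2 * p)) := mul_le_mul_of_nonneg_left hq'4p hL10
        _ = 2 * L1 * (2 * p) := by ring
        _ ≤ L * (2 * p) := by
            apply mul_le_mul_of_nonneg_right _ h2p0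
            rw [hL]; linarith

/-- The threshold bound with the explicit constant of `regime_hlab`. -/
theorem regime_core (K : ℝ) (hK : 1 ≤ K) :
    ∃ L : ℝ, 1 ≤ L ∧ L ≤ 10 ^ 19 * Real.exp (236 * K) ∧
    ∀ (n : ℕ) (H : SimpleGraph (Fin n)), 2 ≤ n →
    sInf {p : ℝ | 0 ≤ p ∧ p ≤ 1 ∧ ∀ H' : H.Subgraph,
        (1 : ℝ) / 2 ≤
          ((⊤ : SimpleGraph (Fin n)).copyCount H'.coe : ℝ) * p ^ H'.edgeSet.ncard} ≤ K / n →
    sInf {p : ℝ | 0 ≤ p ∧ p ≤ 1 ∧ (1 : ℝ) / 2 ≤ ∑ G : SimpleGraph (Fin n),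
        Set.indicator {G | H ⊑ G}
          (fun G => p ^ G.edgeSet.ncard * (1 - p) ^ (n.choose 2 - G.edgeSet.ncard)) G} ≤
      139 * L * sInf {p : ℝ | 0 ≤ p ∧ p ≤ 1 ∧ ∀ H' : H.Subgraph,
        (1 : ℝ) / 2 ≤
          ((⊤ : SimpleGraph (Fin n)).copyCount H'.coe : ℝ) * p ^ H'.edgeSet.ncard} *
        Real.log n := by
  classical
  obtain ⟨L, hL1, hLb, hlab⟩ := regime_hlab K hK
  refine ⟨L, hL1, hLb, ?_⟩
  intro n H hn hsE
  set Sc : Set ℝ := {p : ℝ | 0 ≤ p ∧ p ≤ 1 ∧ (1 : ℝ) / 2 ≤ ∑ G : SimpleGraph (Fin n),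
        Set.indicator {G | H ⊑ G}
          (fun G => p ^ G.edgeSet.ncard * (1 - p) ^ (n.choose 2 - G.edgeSet.ncard)) G} with hSc
  set SE : Set ℝ := {p : ℝ | 0 ≤ p ∧ p ≤ 1 ∧ ∀ H' : H.Subgraph,
        (1 : ℝ) / 2 ≤
          ((⊤ : SimpleGraph (Fin n)).copyCount H'.coe : ℝ) * p ^ H'.edgeSet.ncard} with hSE
  have hl2 : (0.6931471803 : ℝ) < Real.log 2 := Real.log_two_gt_d9
  have hnR : (2 : ℝ) ≤ n := by exact_mod_cast hn
  have hnpos : (0 : ℝ) < n := by linarith
  have hlogn : Real.log 2 ≤ Real.log n := Real.log_le_log (by norm_num) hnR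
  have hlogpos : 0 < Real.log n := by linarith
  have hL0 : 0 < L := by linarith
  have hbddc : BddBelow Sc := ⟨0, fun p hp => hp.1⟩
  have hneE : SE.Nonempty := by
    refine ⟨1, zero_le_one, le_rfl, fun H' => ?_⟩
    have h1 : (1 : ℝ) ≤ ((⊤ : SimpleGraph (Fin n)).copyCount H'.coe : ℝ) := by
      exact_mod_cast one_le_copyCount_top_coe H'
    rw [one_pow, mul_one]
    linarith
  have hkey : ∀ p ∈ SE, p ≤ 2 * K / n → sInf Sc ≤ 139 * L * p * Real.log n := by
    intro p hp hpK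
    obtain ⟨p', hp'0, hp'1, hp'c, hp'le⟩ :=
      contain_of_labelled hn H L hL1 p hp.1 hp.2.2 (hlab n H p hn hp.1 hpK hp.2.2)
    have hmem : p' ∈ Sc := ⟨hp'0, hp'1, hp'c⟩
    exact le_trans (csInf_le hbddc hmem) hp'le
  have hKn : 0 < K / n := div_pos (by linarith) hnpos
  apply le_of_forall_pos_le_add
  intro ε hε
  have hCl : 0 < 139 * L * Real.log n := by positivity
  set η : ℝ := min (K / n) (ε / (139 * L * Real.log n)) with hη
  have hη0 : 0 < η := lt_min hKn (div_pos hε hCl)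
  obtain ⟨p, hpSE, hplt⟩ := exists_lt_of_csInf_lt hneE (by linarith : sInf SE < sInf SE + η)
  have hpK : p ≤ 2 * K / n := by
    have h1 : η ≤ K / n := min_le_left _ _
    have h3 : 2 * K / (n : ℝ) = K / n + K / n := by ring
    linarith
  have h1 := hkey p hpSE hpK
  have h2 : η ≤ ε / (139 * L * Real.log n) := min_le_right _ _
  have h3 : 139 * L * Real.log n * η ≤ ε := by
    have := mul_le_mul_of_nonneg_left h2 hCl.le
    rwa [mul_div_cancel₀ _ hCl.ne'] at this
  calc sInf Sc ≤ 139 * L * p * Real.log n := h1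
    _ ≤ 139 * L * (sInf SE + η) * Real.log n := by
        have : 139 * L * p ≤ 139 * L * (sInf SE + η) :=
          mul_le_mul_of_nonneg_left hplt.le (by positivity)
        exact mul_le_mul_of_nonneg_right this hlogpos.le
    _ = 139 * L * sInf SE * Real.log n + 139 * L * Real.log n * η := by ring
    _ ≤ 139 * L * sInf SE * Real.log n + ε := by linarith

/-- **Q1 when the expectation threshold is of order `1/n`.** For every `K` there is a constant
`C` such that every graph `H` on `n ≥ 2` vertices with `p_E(n,H) ≤ K / n` has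
`p_c(n,H) ≤ C * p_E(n,H) * log n`. -/
theorem regime_threshold_le (K : ℝ) : ∃ C : ℝ, ∀ (n : ℕ) (H : SimpleGraph (Fin n)), 2 ≤ n →
    sInf {p : ℝ | 0 ≤ p ∧ p ≤ 1 ∧ ∀ H' : H.Subgraph,
        (1 : ℝ) / 2 ≤
          ((⊤ : SimpleGraph (Fin n)).copyCount H'.coe : ℝ) * p ^ H'.edgeSet.ncard} ≤ K / n →
    sInf {p : ℝ | 0 ≤ p ∧ p ≤ 1 ∧ (1 : ℝ) / 2 ≤ ∑ G : SimpleGraph (Fin n),
        Set.indicator {G | H ⊑ G}
          (fun G => p ^ G.edgeSet.ncard * (1 - p) ^ (n.choose 2 - G.edgeSet.ncard)) G} ≤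
      C * sInf {p : ℝ | 0 ≤ p ∧ p ≤ 1 ∧ ∀ H' : H.Subgraph,
        (1 : ℝ) / 2 ≤
          ((⊤ : SimpleGraph (Fin n)).copyCount H'.coe : ℝ) * p ^ H'.edgeSet.ncard} *
        Real.log n := by
  obtain ⟨L, _, _, hmain⟩ := regime_core (max K 1) (le_max_right _ _)
  refine ⟨139 * L, ?_⟩
  intro n H hn hsE
  have hnR : (2 : ℝ) ≤ n := by exact_mod_cast hn
  have hnpos : (0 : ℝ) < n := by linarith
  exact hmain n H hn (le_trans hsE (div_le_div_of_nonneg_right (le_max_left _ _) hnpos.le))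

theorem exp_236_le : Real.exp 236 ≤ 10 ^ 103 := by
  have h1 : Real.exp 1 < 2.7182818286 := Real.exp_one_lt_d9
  have h2 : Real.exp 236 = Real.exp 1 ^ 236 := by
    rw [← Real.exp_nat_mul]
    norm_num
  rw [h2]
  calc Real.exp 1 ^ 236 ≤ (2.7182818286 : ℝ) ^ 236 :=
        pow_le_pow_left₀ (Real.exp_pos 1).le h1.le 236
    _ ≤ 10 ^ 103 := by norm_num

/-- **The threshold of every graph.** For every graph `H` on `n ≥ 2` vertices,
`p_c(n,H) ≤ 10^125 * exp(240 n p_E(n,H)) * p_E(n,H) * log n`. -/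
theorem exp_threshold_le {n : ℕ} (hn : 2 ≤ n) (H : SimpleGraph (Fin n)) :
    sInf {p : ℝ | 0 ≤ p ∧ p ≤ 1 ∧ (1 : ℝ) / 2 ≤ ∑ G : SimpleGraph (Fin n),
        Set.indicator {G | H ⊑ G}
          (fun G => p ^ G.edgeSet.ncard * (1 - p) ^ (n.choose 2 - G.edgeSet.ncard)) G} ≤
      10 ^ 125 * Real.exp (240 * (n * sInf {p : ℝ | 0 ≤ p ∧ p ≤ 1 ∧ ∀ H' : H.Subgraph,
        (1 : ℝ) / 2 ≤
          ((⊤ : SimpleGraph (Fin n)).copyCount H'.coe : ℝ) * p ^ H'.edgeSet.ncard})) *
        sInf {p : ℝ | 0 ≤ p ∧ p ≤ 1 ∧ ∀ H' : H.Subgraph,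
          (1 : ℝ) / 2 ≤
            ((⊤ : SimpleGraph (Fin n)).copyCount H'.coe : ℝ) * p ^ H'.edgeSet.ncard} *
        Real.log n := by
  classical
  set SE : Set ℝ := {p : ℝ | 0 ≤ p ∧ p ≤ 1 ∧ ∀ H' : H.Subgraph,
        (1 : ℝ) / 2 ≤
          ((⊤ : SimpleGraph (Fin n)).copyCount H'.coe : ℝ) * p ^ H'.edgeSet.ncard} with hSE
  have hl2 : (0.6931471803 : ℝ) < Real.log 2 := Real.log_two_gt_d9
  have hnR : (2 : ℝ) ≤ n := by exact_mod_cast hn
  have hnpos : (0 : ℝ) < n := by linarith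
  have hlogn : Real.log 2 ≤ Real.log n := Real.log_le_log (by norm_num) hnR
  have hlogpos : 0 < Real.log n := by linarith
  have hneE : SE.Nonempty := by
    refine ⟨1, zero_le_one, le_rfl, fun H' => ?_⟩
    have h1 : (1 : ℝ) ≤ ((⊤ : SimpleGraph (Fin n)).copyCount H'.coe : ℝ) := by
      exact_mod_cast one_le_copyCount_top_coe H'
    rw [one_pow, mul_one]
    linarith
  have hsE0 : 0 ≤ sInf SE := le_csInf hneE (fun p hp => hp.1)
  set x : ℝ := (n : ℝ) * sInf SE with hx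
  have hx0 : 0 ≤ x := by positivity
  obtain ⟨L, hL1, hLb, hmain⟩ := regime_core (max x 1) (le_max_right _ _)
  have hsE : sInf SE ≤ max x 1 / n := by
    rw [le_div_iff₀ hnpos]
    calc sInf SE * n = x := by rw [hx]; ring
      _ ≤ max x 1 := le_max_left _ _
  have h1 := hmain n H hn hsE
  refine le_trans h1 ?_
  have hmax : max x 1 ≤ x + 1 := max_le (by linarith) (by linarith)
  have hexp : Real.exp (236 * max x 1) ≤ 10 ^ 103 * Real.exp (240 * x) := by
    calc Real.exp (236 * max x 1) ≤ Real.exp (240 * x + 236) :=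
          Real.exp_le_exp.2 (by linarith)
      _ = Real.exp (240 * x) * Real.exp 236 := Real.exp_add _ _
      _ ≤ Real.exp (240 * x) * 10 ^ 103 :=
          mul_le_mul_of_nonneg_left exp_236_le (Real.exp_pos _).le
      _ = 10 ^ 103 * Real.exp (240 * x) := mul_comm _ _
  have hL : 139 * L ≤ 10 ^ 125 * Real.exp (240 * x) := by
    have hpos : 0 < Real.exp (240 * x) := Real.exp_pos _
    calc 139 * L ≤ 139 * (10 ^ 19 * Real.exp (236 * max x 1)) := by linarith
      _ ≤ 139 * (10 ^ 19 * (10 ^ 103 * Real.exp (240 * x))) := by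
          have : (10 : ℝ) ^ 19 * Real.exp (236 * max x 1) ≤
              10 ^ 19 * (10 ^ 103 * Real.exp (240 * x)) :=
            mul_le_mul_of_nonneg_left hexp (by positivity)
          linarith
      _ ≤ 10 ^ 125 * Real.exp (240 * x) := by
          have e : (139 : ℝ) * (10 ^ 19 * (10 ^ 103 * Real.exp (240 * x))) =
              139 * 10 ^ 122 * Real.exp (240 * x) := by ring
          rw [e]
          apply mul_le_mul_of_nonneg_right _ hpos.le
          norm_num
  have h2 : 139 * L * sInf SE ≤ 10 ^ 125 * Real.exp (240 * x) * sInf SE :=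
    mul_le_mul_of_nonneg_right hL hsE0
  exact mul_le_mul_of_nonneg_right h2 hlogpos.le

end Vale.Agent.KK.RG
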